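import Vale.Agent.P284.H888.Pack
import Vale.Agent.P284.H747.Spec

/-!
# P284, LW: many disjoint peak functions of small energy
-/

open scoped Manifold ContDiff ComplexOrder Topology ComplexConjugate Matrix
open Complex Set Filter Metric MeasureTheory

noncomputable section

namespace Vale.Agent.P284.H888

open Vale.Agent.P272.K Vale.Agent.P272.K.AMP.Pole

/-- package LW -/
theorem LW : Vale.Agent.P284.H747.Spec_LW := by
  intro n hn
  obtain ⟨χ, C, hχ⟩ := exists_chi
  obtain ⟨ρ, hρ, hρC⟩ := exists_rho n hχ.C_pos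
  have hρ' : 0 < ρ := by linarith
  have hV := vol_pos n
  refine ⟨1 / (4 * ((3 * ρ) ^ n * vol n)), by positivity, ?_⟩
  intro Q U φ w hQ hQb hU hQU hφ hw hpos hHess
  have hK : IsCompact (closure Q) := hQb.isCompact_closure
  have hwc : ∀ i j, ContinuousOn (fun z => w z i j) U := fun i j => (hw i j).continuousOn
  have hdetc : ContinuousOn (fun z => (w z).det.re) U := continuousOn_det hwc
  have hint : IntegrableOn (fun z => (w z).det.re) Q :=
    ((hdetc.mono hQU).integrableOn_compact hK).mono_set subset_closure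
  rcases le_or_gt (∫ z in Q, (w z).det.re) 0 with hI | hI
  · refine ⟨0, fun k _ => ⟨0, fun j => Fin.elim0 j, ?_, fun j => Fin.elim0 j,
      fun j => Fin.elim0 j, fun j => Fin.elim0 j⟩⟩
    rw [Nat.cast_zero]
    exact mul_nonpos_of_nonneg_of_nonpos (by positivity) hI
  obtain ⟨m, M, δ, hM, hδ, hup, hcmp, hm, hlow, hdet, hnear⟩ :=
    exists_near hK subset_closure hU hQU hφ hw hpos hHess
  obtain ⟨Q', hQ', hQ'Q, hhalf⟩ := exists_compact_half hQ hQb hint hI
  obtain ⟨δ', hδ', hball⟩ := unif_nhd hQ' hQ hQ'Q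
  obtain ⟨k₀, hk₀⟩ := exists_nat_gt (3 * ρ / (m * (min δ δ') ^ 2))
  refine ⟨max k₀ 1, fun k hk => ?_⟩
  have hk1 : 1 ≤ k := (le_max_right _ _).trans hk
  have hk' : (0 : ℝ) < k := by exact_mod_cast hk1
  have hmin : 0 < min δ δ' := lt_min hδ hδ'
  have hk2 : 3 * ρ < k * (m * (min δ δ') ^ 2) := by
    rw [div_lt_iff₀ (by positivity)] at hk₀
    have h1 : (k₀ : ℝ) ≤ k := by exact_mod_cast (le_max_left _ _).trans hk
    have h2 : (k₀ : ℝ) * (m * (min δ δ') ^ 2) ≤ k * (m * (min δ δ') ^ 2) := by gcongr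
    linarith
  have hsq : (min δ δ') ^ 2 ≤ δ ^ 2 := pow_le_pow_left₀ hmin.le (min_le_left _ _) 2
  have hsq' : (min δ δ') ^ 2 ≤ δ' ^ 2 := pow_le_pow_left₀ hmin.le (min_le_right _ _) 2
  set r : ℝ := ρ / k with hr
  have hr0 : 0 < r := by positivity
  have hr3 : 3 * r < m * (min δ δ') ^ 2 := by
    rw [hr, mul_div_assoc', div_lt_iff₀ hk']
    linarith
  have hr3δ : 3 * r < m * δ ^ 2 := hr3.trans_le (by gcongr)
  have hr3δ' : 3 * r < m * δ' ^ 2 := hr3.trans_le (by gcongr)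
  have hrδ : ρ / (2 * k) < m * δ ^ 2 := by
    have : ρ / (2 * k) = r / 2 := by rw [hr]; field_simp
    rw [this]
    linarith
  have hQ'K : Q' ⊆ closure Q := hQ'Q.trans subset_closure
  obtain ⟨s, hs, hmax⟩ := exists_max_pack hQ' hM hr0 fun q hq => hup q (hQ'K hq)
  have hvol := pack_volume hQ' hm hr0 hδ (fun q hq => hpos q (hQU (hQ'K hq)))
    (fun q hq => hlow q (hQ'K hq)) (fun q hq z hz => hcmp q (hQ'K hq) z (hQ'K hz))
    (fun q hq => hdet q (hQ'K hq)) (hint.mono_set hQ'Q) hr3δ hs hmax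
  have hcount : 1 / (4 * ((3 * ρ) ^ n * vol n)) * (k : ℝ) ^ n * (∫ z in Q, (w z).det.re) ≤
      s.card := by
    have h1 : (∫ z in Q, (w z).det.re) ≤ 2 * (2 * s.card * ((3 * r) ^ n * vol n)) := by
      linarith
    have h2 : (k : ℝ) ^ n * (3 * r) ^ n = (3 * ρ) ^ n := by
      rw [← mul_pow, hr]
      congr 1
      field_simp
    calc 1 / (4 * ((3 * ρ) ^ n * vol n)) * (k : ℝ) ^ n * (∫ z in Q, (w z).det.re)
        ≤ 1 / (4 * ((3 * ρ) ^ n * vol n)) * (k : ℝ) ^ n *
          (2 * (2 * s.card * ((3 * r) ^ n * vol n))) := by gcongr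
      _ = 1 / (4 * ((3 * ρ) ^ n * vol n)) * ((k : ℝ) ^ n * (3 * r) ^ n) *
          (4 * s.card * vol n) := by ring
      _ = s.card := by
          rw [h2]
          field_simp
  -- the peak functions
  set e := s.equivFin.symm with he
  have hch : ∀ q : Cm n, ∃ h : Cm n → ℂ, q ∈ Q' → Near U φ w q h m δ := by
    intro q
    by_cases hq : q ∈ Q'
    · obtain ⟨h, hh⟩ := hnear q (hQ'Q hq)
      exact ⟨h, fun _ => hh⟩
    · exact ⟨0, fun h => absurd h hq⟩
  choose h hh using hch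
  have hN : ∀ j : Fin s.card, Near U φ w (e j) (h (e j)) m δ := fun j =>
    hh _ (hs.mem _ (e j).2)
  have hsupp : ∀ (j : Fin s.card) z,
      z ∈ tsupport (pk χ (w (e j : Cm n)) (e j) (h (e j)) k ρ) →
        qf (w (e j : Cm n)) (z - (e j : Cm n)) ≤ r / 2 := by
    intro j z hz
    have h1 := ((hN j).tsupp hχ hk1 hρ hrδ hz).2
    rw [div_le_iff₀ hρ'] at h1
    rw [hr, div_div, le_div_iff₀ (by positivity)]
    linarith
  refine ⟨s.card, fun j => pk χ (w (e j : Cm n)) (e j) (h (e j)) k ρ, hcount, fun j => ?_,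
    fun i j hij => ?_, fun j => ?_⟩
  · refine ⟨contDiff_pk hχ (hN j).hol, (hN j).compact hχ hk1 hρ hrδ, fun z hz => ?_,
      (e j : Cm n), pk_self hχ⟩
    have h1 := hsupp j z hz
    have h2 := (hN j).low (z - (e j : Cm n))
    have h3 : m * ‖z - (e j : Cm n)‖ ^ 2 < m * δ' ^ 2 := by linarith
    have h4 := lt_of_pow_lt_pow_left₀ 2 hδ'.le (lt_of_mul_lt_mul_left h3 hm.le)
    refine hball _ (hs.mem _ (e j).2) ?_
    rw [mem_ball, dist_eq_norm]
    exact h4
  · rw [Set.disjoint_left]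
    intro z hz1 hz2
    have hne : (e i : Cm n) ≠ (e j : Cm n) := fun h => hij (e.injective (Subtype.ext h))
    exact hs.disj _ (e i).2 _ (e j).2 hne z (hsupp i z hz1) (hsupp j z hz2)
  · exact (hN j).estimate hχ hk1 hρ hρC hrδ hdetc hφ.continuousOn

end Vale.Agent.P284.H888
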