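import Vale.Agent.P284.H888.Q
import Vale.Agent.P272.K.AMP.Pole.Mass
import Mathlib.Analysis.SpecialFunctions.Exp
import Mathlib.Analysis.Calculus.BumpFunction.Basic
import Mathlib.Analysis.Calculus.BumpFunction.InnerProduct

/-!
# P284, LW: the cut-off functions of one variable
-/

open scoped Manifold ContDiff ComplexOrder Topology ComplexConjugate Matrix
open Complex Set Filter Metric MeasureTheory

noncomputable section

namespace Vale.Agent.P284.H888

open Vale.Agent.P272.K Vale.Agent.P272.K.AMP.Pole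

/-- a smooth cut-off function of one variable -/
structure Chi (χ : ℝ → ℝ) (C : ℝ) : Prop where
  sm : ContDiff ℝ ∞ χ
  C_pos : 0 < C
  nonneg : ∀ t, 0 ≤ χ t
  le_one : ∀ t, χ t ≤ 1
  one : ∀ t, |t| ≤ 1 / 4 → χ t = 1
  zero : ∀ t, 1 / 2 ≤ |t| → χ t = 0
  deriv_le : ∀ t, |deriv χ t| ≤ C

lemma exists_chi : ∃ (χ : ℝ → ℝ) (C : ℝ), Chi χ C := by
  let b : ContDiffBump (0 : ℝ) := ⟨1 / 4, 1 / 2, by norm_num, by norm_num⟩
  have hsm : ContDiff ℝ ∞ b := b.contDiff
  have hcs : HasCompactSupport b := b.hasCompactSupport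
  have hd : Continuous (deriv b) := hsm.continuous_deriv (by simp)
  obtain ⟨C, hC⟩ := hd.bounded_above_of_compact_support hcs.deriv
  refine ⟨b, max C 1, hsm, by positivity, fun t => b.nonneg, fun t => b.le_one, fun t ht => ?_,
    fun t ht => ?_, fun t => (hC t).trans (le_max_left _ _)⟩
  · refine b.one_of_mem_closedBall ?_
    rw [mem_closedBall, Real.dist_eq, sub_zero]
    exact ht
  · refine b.zero_of_le_dist ?_
    rw [Real.dist_eq, sub_zero]
    exact ht

lemma Chi.deriv_zero_in {χ : ℝ → ℝ} {C : ℝ} (h : Chi χ C) {t : ℝ} (ht : |t| < 1 / 4) :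
    deriv χ t = 0 := by
  have h1 : χ =ᶠ[𝓝 t] fun _ => (1 : ℝ) := by
    have h2 : {s : ℝ | |s| < 1 / 4} ∈ 𝓝 t := (isOpen_lt continuous_abs continuous_const).mem_nhds ht
    filter_upwards [h2] with s hs
    exact h.one s (le_of_lt hs)
  rw [h1.deriv_eq]
  simp

lemma Chi.deriv_zero_out {χ : ℝ → ℝ} {C : ℝ} (h : Chi χ C) {t : ℝ} (ht : 1 / 2 < |t|) :
    deriv χ t = 0 := by
  have h1 : χ =ᶠ[𝓝 t] fun _ => (0 : ℝ) := by
    have h2 : {s : ℝ | 1 / 2 < |s|} ∈ 𝓝 t := (isOpen_lt continuous_const continuous_abs).mem_nhds ht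
    filter_upwards [h2] with s hs
    exact h.zero s (le_of_lt hs)
  rw [h1.deriv_eq]
  simp

/-- the comparison function -/
def beta (s : ℝ) : ℝ := max 0 (min 1 (2 - s))

lemma continuous_beta : Continuous beta := by
  unfold beta
  fun_prop

lemma beta_nonneg (s : ℝ) : 0 ≤ beta s := le_max_left _ _

lemma beta_le_one (s : ℝ) : beta s ≤ 1 := max_le (by norm_num) (min_le_left _ _)

lemma beta_one {s : ℝ} (h : s ≤ 1) : beta s = 1 := by
  unfold beta
  rw [min_eq_left (by linarith)]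
  norm_num

lemma beta_zero {s : ℝ} (h : 2 ≤ s) : beta s = 0 := by
  unfold beta
  rw [max_eq_left]
  exact (min_le_right _ _).trans (by linarith)

variable {n : ℕ}

/-- the normalised volume -/
def vol (n : ℕ) : ℝ := ∫ z : Cm n, beta (∑ i, ‖z i‖ ^ 2)

lemma vol_pos (n : ℕ) : 0 < vol n := by
  have hc : Continuous fun z : Cm n => beta (∑ i, ‖z i‖ ^ 2) := by
    refine continuous_beta.comp ?_
    fun_prop
  refine hc.integral_pos_of_hasCompactSupport_nonneg_nonzero ?_ (fun z => beta_nonneg _) (x := 0) ?_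
  · refine HasCompactSupport.of_support_subset_isCompact (isCompact_closedBall (0 : Cm n) 2) ?_
    intro z hz
    rw [Function.mem_support] at hz
    have h1 : ∑ i, ‖z i‖ ^ 2 < 2 := by
      by_contra h
      exact hz (beta_zero (not_lt.1 h))
    rw [mem_closedBall_zero_iff, pi_norm_le_iff_of_nonneg (by norm_num)]
    intro i
    have h2 : ‖z i‖ ^ 2 ≤ ∑ i, ‖z i‖ ^ 2 :=
      Finset.single_le_sum (f := fun i => ‖z i‖ ^ 2) (fun i _ => sq_nonneg _) (Finset.mem_univ i)
    nlinarith [norm_nonneg (z i)]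
  · rw [beta_one (by simp)]
    norm_num

variable {W : Matrix (Fin n) (Fin n) ℂ}

lemma continuous_beta_qf (q : Cm n) (r : ℝ) : Continuous fun z => beta (qf W (z - q) / r) := by
  refine continuous_beta.comp ?_
  have := (contDiff_qf (P := W) (z0 := q)).continuous
  exact this.div_const _

lemma integrable_beta_qf (hW : W.PosDef) (q : Cm n) {r : ℝ} (hr : 0 < r) (c : ℝ) :
    Integrable fun z => beta (qf W (z - q) / r) * c := by
  refine Integrable.mul_const ?_ c
  refine (continuous_beta_qf q r).integrable_of_hasCompactSupport ?_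
  obtain ⟨m, hm, hlow⟩ := exists_qf_ge hW
  refine HasCompactSupport.of_support_subset_isCompact
    (isCompact_closedBall q (Real.sqrt (2 * r / m))) ?_
  intro z hz
  rw [Function.mem_support] at hz
  have h1 : qf W (z - q) / r < 2 := by
    by_contra h
    exact hz (beta_zero (not_lt.1 h))
  rw [div_lt_iff₀ hr] at h1
  rw [mem_closedBall, dist_eq_norm]
  refine Real.le_sqrt_of_sq_le ?_
  rw [le_div_iff₀ hm]
  have := hlow (z - q)
  linarith

lemma integral_beta_qf (hW : W.PosDef) (q : Cm n) {r : ℝ} (hr : 0 < r) :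
    ∫ z, beta (qf W (z - q) / r) * W.det.re = r ^ n * vol n := by
  have h1 := integral_sub_right_eq_self (μ := (volume : Measure (Cm n)))
    (fun z => beta (qf W z / r) * W.det.re) q
  rw [h1]
  have h2 := massEst n beta W (Real.sqrt r) continuous_beta hW (Real.sqrt_pos.2 hr)
  rw [Real.sq_sqrt hr.le, pow_mul, Real.sq_sqrt hr.le] at h2
  exact h2

/-- the choice of the radius -/
lemma exists_rho (n : ℕ) {C : ℝ} (hC : 0 < C) : ∃ ρ : ℝ, 8 ≤ ρ ∧
    2 * C ^ 2 * (ρ ^ n / ρ) * Real.exp (-ρ / 12) ≤ Real.exp (-4) / 200 := by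
  have h1 := Real.tendsto_pow_mul_exp_neg_atTop_nhds_zero n
  have h2 : Tendsto (fun ρ : ℝ => ρ / 12) atTop atTop :=
    Filter.tendsto_id.atTop_div_const (by norm_num)
  have h3 := h1.comp h2
  have h4 : 0 < Real.exp (-4) / 200 / (2 * C ^ 2 * 12 ^ n) := by positivity
  obtain ⟨ρ, hρ8, hρ⟩ := ((eventually_ge_atTop (8 : ℝ)).and (h3.eventually_lt_const h4)).exists
  refine ⟨ρ, hρ8, ?_⟩
  simp only [Function.comp_apply] at hρ
  rw [lt_div_iff₀ (by positivity)] at hρ
  have h5 : ρ ^ n / ρ ≤ ρ ^ n := div_le_self (by positivity) (by linarith)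
  have h6 : (ρ / 12) ^ n * 12 ^ n = ρ ^ n := by
    rw [div_pow]
    field_simp
  have h7 : Real.exp (-(ρ / 12)) = Real.exp (-ρ / 12) := by
    congr 1
    ring
  calc 2 * C ^ 2 * (ρ ^ n / ρ) * Real.exp (-ρ / 12) ≤ 2 * C ^ 2 * ρ ^ n * Real.exp (-ρ / 12) := by
        gcongr
    _ = (ρ / 12) ^ n * Real.exp (-(ρ / 12)) * (2 * C ^ 2 * 12 ^ n) := by
        rw [← h6, h7]
        ring
    _ ≤ _ := hρ.le

end Vale.Agent.P284.H888
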