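import Vale.Agent.P284.H888.Peak

/-!
# P284, LW: uniform normal forms of the weight
-/

open scoped Manifold ContDiff ComplexOrder Topology ComplexConjugate Matrix
open Complex Set Filter Metric MeasureTheory

noncomputable section

namespace Vale.Agent.P284.H888

open Vale.Agent.P272.K Vale.Agent.P272.K.AMP.Pole

variable {n : ℕ}

lemma qf_cHess {φ : Cm n → ℝ} {q : Cm n} (hφ : ContDiffAt ℝ 2 φ q) (v : Cm n) :
    qf (cHess φ q) v = (fderiv ℝ (fderiv ℝ φ) q v v +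
      fderiv ℝ (fderiv ℝ φ) q (I • v) (I • v)) / 4 := by
  have hsymm : ∀ a b : Cm n, fderiv ℝ (fderiv ℝ φ) q a b = fderiv ℝ (fderiv ℝ φ) q b a :=
    fun a b => (hφ.isSymmSndFDerivAt (by simp)) a b
  have hd2 : DifferentiableAt ℝ (fderiv ℝ φ) q :=
    (hφ.fderiv_right (m := 1) (by norm_num)).differentiableAt (by simp)
  rw [qf_eq_dot, N.cHess_eq_lev hd2, N.lev_quadratic hsymm, star_star, Complex.ofReal_re]

lemma exists_near {K Q U : Set (Cm n)} {φ : Cm n → ℝ} {w : Cm n → Matrix (Fin n) (Fin n) ℂ}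
    (hK : IsCompact K) (hQK : Q ⊆ K) (hU : IsOpen U) (hKU : K ⊆ U) (hφ : ContDiffOn ℝ ∞ φ U)
    (hw : ∀ i j, ContDiffOn ℝ ∞ (fun z => w z i j) U) (hpos : ∀ z ∈ U, (w z).PosDef)
    (hQ : ∀ z ∈ Q, (w z - cHess φ z).PosSemidef ∧ (2 • cHess φ z - w z).PosSemidef) :
    ∃ m M δ : ℝ, 0 < M ∧ 0 < δ ∧ (∀ q ∈ K, ∀ ζ, qf (w q) ζ ≤ M * ‖ζ‖ ^ 2) ∧
      (∀ q ∈ K, ∀ z ∈ K, ‖z - q‖ < δ → ∀ ζ, qf (w z) ζ ≤ 2 * qf (w q) ζ) ∧ 0 < m ∧
      (∀ q ∈ K, ∀ ζ, m * ‖ζ‖ ^ 2 ≤ qf (w q) ζ) ∧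
      (∀ q ∈ K, ∀ z, ‖z - q‖ < δ → (w z).det.re ≤ 2 * (w q).det.re) ∧
      ∀ q ∈ Q, ∃ h, Near U φ w q h m δ := by
  obtain ⟨δ₁, m, M, hδ₁, hm, hM, hmM, h1⟩ := unif_w hK hU hKU
    (fun i j => (hw i j).continuousOn) hpos
  obtain ⟨δ₂, hδ₂, h2⟩ := unif_taylor hK hU hKU (hφ.of_le (WithTop.coe_le_coe.2 le_top))
    (ε := m / 6) (by positivity)
  refine ⟨m, M, min δ₁ δ₂, hM, lt_min hδ₁ hδ₂, fun q hq ζ => (hmM q hq ζ).2,
    fun q hq z _ hz => (h1 q hq z (hz.trans_le (min_le_left _ _))).2.2.1, hm,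
    fun q hq ζ => (hmM q hq ζ).1,
    fun q hq z hz => (h1 q hq z (hz.trans_le (min_le_left _ _))).2.2.2.1, fun q hq => ?_⟩
  have hqK := hQK hq
  have hqU := hKU hqK
  have hat : ContDiffAt ℝ 2 φ q :=
    (hφ.contDiffAt (hU.mem_nhds hqU)).of_le (WithTop.coe_le_coe.2 le_top)
  set D := fderiv ℝ φ q with hD
  set B : N.Bil n := fderiv ℝ (fderiv ℝ φ) q with hB
  have hsymm : ∀ a b : Cm n, B a b = B b a :=
    fun a b => (hat.isSymmSndFDerivAt (by simp)) a b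
  set h : Cm n → ℂ := fun z => (φ q : ℂ) + Vale.Agent.P272.KOD.hol1 D (z - q) +
    Vale.Agent.P272.KOD.hol2 B (z - q) with hh
  have hkey : ∀ z, ‖z - q‖ < min δ₁ δ₂ →
      |φ z - (h z).re - qf (cHess φ q) (z - q)| ≤ qf (w q) (z - q) / 6 := by
    intro z hz
    have h3 := h2 q hqK (z - q) (hz.trans_le (min_le_right _ _))
    rw [add_sub_cancel] at h3
    have h4 : φ z - (h z).re - qf (cHess φ q) (z - q) =
        φ z - φ q - D (z - q) - (1 / 2) * B (z - q) (z - q) := by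
      rw [qf_cHess hat, hh]
      simp only [Complex.add_re, Vale.Agent.P272.KOD.re_hol1, Vale.Agent.P272.KOD.re_hol2,
        Complex.ofReal_re]
      ring
    rw [h4]
    have h5 := (hmM q hqK (z - q)).1
    refine h3.trans ?_
    linarith
  have hc1 : ∀ v, qf (cHess φ q) v ≤ qf (w q) v := qf_mono (hQ q hq).1
  have hc2 : ∀ v, qf (w q) v ≤ 2 * qf (cHess φ q) v := by
    intro v
    have := qf_mono (hQ q hq).2 v
    rwa [qf_nsmul_two] at this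
  refine ⟨h, ⟨hm, lt_min hδ₁ hδ₂, hpos q hqU, fun ζ => (hmM q hqK ζ).1, ?_,
    fun z hz => (h1 q hqK z (hz.trans_le (min_le_left _ _))).1,
    fun z hz => hpos z (h1 q hqK z (hz.trans_le (min_le_left _ _))).1,
    fun z hz => (h1 q hqK z (hz.trans_le (min_le_left _ _))).2.1,
    fun z hz => (h1 q hqK z (hz.trans_le (min_le_left _ _))).2.2.2.1,
    fun z hz => (h1 q hqK z (hz.trans_le (min_le_left _ _))).2.2.2.2,
    fun z hz => ?_, fun z hz => ?_⟩⟩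
  · have h1 := Vale.Agent.P272.KOD.differentiable_hol1 D
    have h2 := Vale.Agent.P272.KOD.differentiable_hol2 hsymm
    rw [hh]
    fun_prop
  · have h3 := (abs_le.1 (hkey z hz)).1
    have h4 := hc2 (z - q)
    linarith
  · have h3 := (abs_le.1 (hkey z hz)).2
    have h4 := hc1 (z - q)
    have h5 := qf_nonneg (hpos q hqU) (z - q)
    linarith

end Vale.Agent.P284.H888
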