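import Vale.Agent.P284.H888.NearE

/-!
# P284, LW: a maximal packing
-/

open scoped Manifold ContDiff ComplexOrder Topology ComplexConjugate Matrix
open Complex Set Filter Metric MeasureTheory

noncomputable section

namespace Vale.Agent.P284.H888

open Vale.Agent.P272.K Vale.Agent.P272.K.AMP.Pole

variable {n : ℕ}

/-- a family of points of `Q` with disjoint ellipsoids -/
structure Pack (Q : Set (Cm n)) (w : Cm n → Matrix (Fin n) (Fin n) ℂ) (r : ℝ)
    (s : Finset (Cm n)) : Prop where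
  mem : ∀ q ∈ s, q ∈ Q
  disj : ∀ q ∈ s, ∀ q' ∈ s, q ≠ q' → ∀ y, qf (w q) (y - q) ≤ r / 2 →
    ¬ qf (w q') (y - q') ≤ r / 2

lemma Pack.card_bound {Q : Set (Cm n)} (hQ : IsCompact Q)
    {w : Cm n → Matrix (Fin n) (Fin n) ℂ} {M r : ℝ} (hM : 0 < M) (hr : 0 < r)
    (hup : ∀ q ∈ Q, ∀ ζ, qf (w q) ζ ≤ M * ‖ζ‖ ^ 2) :
    ∃ T : ℕ, ∀ s, Pack Q w r s → s.card ≤ T := by
  set η : ℝ := Real.sqrt (r / (2 * M)) with hη
  have hη0 : 0 < η := Real.sqrt_pos.2 (by positivity)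
  have hη2 : η ^ 2 = r / (2 * M) := Real.sq_sqrt (by positivity)
  obtain ⟨t, ht, hcov⟩ := Metric.totallyBounded_iff.1 hQ.totallyBounded (η / 2) (by positivity)
  refine ⟨ht.toFinset.card, fun s hs => ?_⟩
  have h1 : ∀ q : Cm n, ∃ y : Cm n, q ∈ s → y ∈ t ∧ dist q y < η / 2 := by
    intro q
    by_cases hq : q ∈ s
    · obtain ⟨y, hy⟩ := mem_iUnion.1 (hcov (hs.mem q hq))
      obtain ⟨hy1, hy2⟩ := mem_iUnion.1 hy
      exact ⟨y, fun _ => ⟨hy1, hy2⟩⟩
    · exact ⟨0, fun h => absurd h hq⟩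
  choose f hf using h1
  refine Finset.card_le_card_of_injOn f (fun q hq => ?_) ?_
  · simpa using (hf q hq).1
  · intro q hq q' hq' he
    by_contra hne
    have hq1 : q ∈ s := hq
    have hq2 : q' ∈ s := hq'
    have h2 : dist q q' < η := by
      have h3 := (hf q hq1).2
      have h4 := (hf q' hq2).2
      rw [← he, dist_comm] at h4
      have := dist_triangle q (f q) q'
      linarith
    have h5 := hs.disj q hq1 q' hq2 hne q'
    rw [sub_self, qf_zero] at h5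
    have h6 : r / 2 < qf (w q) (q' - q) := by
      by_contra h7
      exact h5 (not_lt.1 h7) (by positivity)
    have h7 := hup q (hs.mem q hq1) (q' - q)
    rw [dist_comm, dist_eq_norm] at h2
    have h8 : ‖q' - q‖ ^ 2 < η ^ 2 := pow_lt_pow_left₀ h2 (norm_nonneg _) (by norm_num)
    rw [hη2] at h8
    have h9 : M * ‖q' - q‖ ^ 2 < M * (r / (2 * M)) := mul_lt_mul_of_pos_left h8 hM
    have h10 : M * (r / (2 * M)) = r / 2 := by field_simp
    linarith

lemma exists_max_pack {Q : Set (Cm n)} (hQ : IsCompact Q)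
    {w : Cm n → Matrix (Fin n) (Fin n) ℂ} {M r : ℝ} (hM : 0 < M) (hr : 0 < r)
    (hup : ∀ q ∈ Q, ∀ ζ, qf (w q) ζ ≤ M * ‖ζ‖ ^ 2) :
    ∃ s : Finset (Cm n), Pack Q w r s ∧ ∀ z ∈ Q, z ∈ s ∨
      ∃ q ∈ s, ∃ y, qf (w q) (y - q) ≤ r / 2 ∧ qf (w z) (y - z) ≤ r / 2 := by
  classical
  obtain ⟨T, hT⟩ := Pack.card_bound hQ hM hr hup
  set S : Set ℕ := {N | ∃ s, Pack Q w r s ∧ s.card = N} with hS
  have hne : S.Nonempty := ⟨0, ∅, ⟨by simp, by simp⟩, rfl⟩
  have hbdd : BddAbove S := ⟨T, by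
    rintro N ⟨s, hs, rfl⟩
    exact hT s hs⟩
  obtain ⟨s, hs, hcard⟩ := Nat.sSup_mem hne hbdd
  refine ⟨s, hs, fun z hz => ?_⟩
  by_contra hcon
  push Not at hcon
  obtain ⟨hzs, hcon⟩ := hcon
  have hP : Pack Q w r (insert z s) := by
    refine ⟨fun q hq => ?_, fun q hq q' hq' hne y hy1 hy2 => ?_⟩
    · rcases Finset.mem_insert.1 hq with rfl | h
      · exact hz
      · exact hs.mem q h
    · rcases Finset.mem_insert.1 hq with rfl | h
      · rcases Finset.mem_insert.1 hq' with rfl | h'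
        · exact hne rfl
        · exact absurd hy1 (not_le.2 (hcon q' h' y hy2))
      · rcases Finset.mem_insert.1 hq' with rfl | h'
        · exact absurd hy2 (not_le.2 (hcon q h y hy1))
        · exact hs.disj q h q' h' hne y hy1 hy2
  have h1 : (insert z s).card ≤ sSup S := le_csSup hbdd ⟨insert z s, hP, rfl⟩
  rw [Finset.card_insert_of_notMem hzs, hcard] at h1
  omega

/-- the covering estimate -/
lemma pack_volume {Q : Set (Cm n)} (hQ : IsCompact Q)
    {w : Cm n → Matrix (Fin n) (Fin n) ℂ} {m r δ : ℝ} (hm : 0 < m) (hr : 0 < r) (hδ : 0 < δ)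
    (hpos : ∀ q ∈ Q, (w q).PosDef)
    (hlow : ∀ q ∈ Q, ∀ ζ, m * ‖ζ‖ ^ 2 ≤ qf (w q) ζ)
    (hcmp : ∀ q ∈ Q, ∀ z ∈ Q, ‖z - q‖ < δ → ∀ ζ, qf (w z) ζ ≤ 2 * qf (w q) ζ)
    (hdet : ∀ q ∈ Q, ∀ z, ‖z - q‖ < δ → (w z).det.re ≤ 2 * (w q).det.re)
    (hint : IntegrableOn (fun z => (w z).det.re) Q)
    (hrδ : 3 * r < m * δ ^ 2) {s : Finset (Cm n)} (hs : Pack Q w r s)
    (hmax : ∀ z ∈ Q, z ∈ s ∨
      ∃ q ∈ s, ∃ y, qf (w q) (y - q) ≤ r / 2 ∧ qf (w z) (y - z) ≤ r / 2) :
    ∫ z in Q, (w z).det.re ≤ 2 * s.card * ((3 * r) ^ n * vol n) := by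
  have hdp : ∀ q ∈ Q, 0 < (w q).det.re := fun q hq => (Complex.pos_iff.1 (hpos q hq).det_pos).1
  have hnorm : ∀ q ∈ Q, ∀ ζ, qf (w q) ζ ≤ 3 * r → ‖ζ‖ < δ := by
    intro q hq ζ hζ
    have h1 := hlow q hq ζ
    have h3 : m * ‖ζ‖ ^ 2 < m * δ ^ 2 := by linarith
    exact lt_of_pow_lt_pow_left₀ 2 hδ.le (lt_of_mul_lt_mul_left h3 hm.le)
  have hkey : ∀ z ∈ Q, ∃ q ∈ s, qf (w q) (z - q) ≤ 3 * r := by
    intro z hz
    rcases hmax z hz with h | ⟨q, hq, y, hy1, hy2⟩
    · exact ⟨z, h, by rw [sub_self, qf_zero]; positivity⟩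
    · have hqQ := hs.mem q hq
      refine ⟨q, hq, ?_⟩
      have h1 : ‖z - q‖ < δ := by
        have e1 := hlow q hqQ (y - q)
        have e2 := hlow z hz (y - z)
        have e3 : ‖z - q‖ ≤ ‖y - q‖ + ‖y - z‖ := by
          have : z - q = (y - q) - (y - z) := by abel
          rw [this]
          exact norm_sub_le _ _
        have e4 : ‖z - q‖ ^ 2 ≤ 2 * ‖y - q‖ ^ 2 + 2 * ‖y - z‖ ^ 2 := by
          have := pow_le_pow_left₀ (norm_nonneg _) e3 2
          nlinarith [sq_nonneg (‖y - q‖ - ‖y - z‖)]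
        have e5 : m * ‖z - q‖ ^ 2 < m * δ ^ 2 := by nlinarith
        exact lt_of_pow_lt_pow_left₀ 2 hδ.le (lt_of_mul_lt_mul_left e5 hm.le)
      have h2 := hcmp z hz q hqQ (by rwa [norm_sub_rev] at h1) (z - y)
      have h3 : qf (w z) (z - y) = qf (w z) (y - z) := by
        rw [← qf_neg, neg_sub]
      have h4 := qf_add_le (hpos q hqQ).posSemidef (y - q) (z - y)
      have h5 : y - q + (z - y) = z - q := by abel
      rw [h5] at h4
      rw [h3] at h2
      linarith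
  have hpt : ∀ z ∈ Q, (w z).det.re ≤
      ∑ q ∈ s, 2 * (beta (qf (w q) (z - q) / (3 * r)) * (w q).det.re) := by
    intro z hz
    obtain ⟨q, hq, hle⟩ := hkey z hz
    have hb : beta (qf (w q) (z - q) / (3 * r)) = 1 :=
      beta_one (by rw [div_le_one (by positivity)]; exact hle)
    have h1 := hdet q (hs.mem q hq) z (hnorm q (hs.mem q hq) _ hle)
    refine h1.trans ?_
    have h2 := Finset.single_le_sum
      (f := fun q => 2 * (beta (qf (w q) (z - q) / (3 * r)) * (w q).det.re))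
      (fun q' hq' => by
        have := hdp q' (hs.mem q' hq')
        have := beta_nonneg (qf (w q') (z - q') / (3 * r))
        positivity) hq
    simp only [hb, one_mul] at h2
    exact h2
  have hint2 : Integrable fun z =>
      ∑ q ∈ s, 2 * (beta (qf (w q) (z - q) / (3 * r)) * (w q).det.re) :=
    integrable_finsetSum _ fun q hq =>
      (integrable_beta_qf (hpos q (hs.mem q hq)) q (by positivity) _).const_mul 2
  have h1 : ∫ z in Q, (w z).det.re ≤
      ∫ z in Q, ∑ q ∈ s, 2 * (beta (qf (w q) (z - q) / (3 * r)) * (w q).det.re) :=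
    setIntegral_mono_on hint hint2.integrableOn hQ.measurableSet hpt
  have h2 : ∫ z in Q, ∑ q ∈ s, 2 * (beta (qf (w q) (z - q) / (3 * r)) * (w q).det.re) ≤
      ∫ z, ∑ q ∈ s, 2 * (beta (qf (w q) (z - q) / (3 * r)) * (w q).det.re) := by
    refine setIntegral_le_integral hint2 (Eventually.of_forall fun z => ?_)
    refine Finset.sum_nonneg fun q hq => ?_
    have := hdp q (hs.mem q hq)
    have := beta_nonneg (qf (w q) (z - q) / (3 * r))
    positivity
  have h3 : ∫ z, ∑ q ∈ s, 2 * (beta (qf (w q) (z - q) / (3 * r)) * (w q).det.re) =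
      2 * s.card * ((3 * r) ^ n * vol n) := by
    rw [integral_finsetSum _ fun q hq =>
      (integrable_beta_qf (hpos q (hs.mem q hq)) q (by positivity) _).const_mul 2]
    have h4 : ∀ q ∈ s, ∫ z, 2 * (beta (qf (w q) (z - q) / (3 * r)) * (w q).det.re) =
        2 * ((3 * r) ^ n * vol n) := by
      intro q hq
      rw [integral_const_mul, integral_beta_qf (hpos q (hs.mem q hq)) q (by positivity)]
    rw [Finset.sum_congr rfl h4, Finset.sum_const, nsmul_eq_mul]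
    ring
  linarith

/-- a compact subset carrying half of the mass -/
lemma exists_compact_half {Q : Set (Cm n)} (hQ : IsOpen Q) (hb : Bornology.IsBounded Q)
    {f : Cm n → ℝ} (hf : IntegrableOn f Q) (hI : 0 < ∫ z in Q, f z) :
    ∃ Q', IsCompact Q' ∧ Q' ⊆ Q ∧ (∫ z in Q, f z) ≤ 2 * ∫ z in Q', f z := by
  obtain ⟨F, hF1, hF2, hF3, hF4⟩ := hQ.exists_iUnion_isClosed
  have h1 := tendsto_setIntegral_of_monotone (μ := volume) (f := f)
    (fun i => (hF1 i).measurableSet) hF4 (by rw [hF3]; exact hf)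
  rw [hF3] at h1
  have h2 : (∫ z in Q, f z) / 2 < ∫ z in Q, f z := by linarith
  obtain ⟨i, hi⟩ := (h1.eventually_const_lt h2).exists
  refine ⟨F i, ?_, hF2 i, by linarith⟩
  exact Metric.isCompact_of_isClosed_isBounded (hF1 i) (hb.subset (hF2 i))

end Vale.Agent.P284.H888
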