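import Vale.Agent.P284.H888.Q
import Vale.Agent.P272.KOD.PeakA
import Mathlib.Topology.UniformSpace.HeineCantor

/-!
# P284, LW: uniform estimates on a compact set
-/

open scoped Manifold ContDiff ComplexOrder Topology ComplexConjugate Matrix
open Complex Set Filter Metric

noncomputable section

namespace Vale.Agent.P284.H888

open Vale.Agent.P272.K Vale.Agent.P272.K.AMP.Pole Vale.Agent.P272.KOD

lemma unif_cont {E F : Type*} [PseudoMetricSpace E] [PseudoMetricSpace F] {K : Set E}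
    (hK : IsCompact K) {f : E → F} (hf : ∀ a ∈ K, ContinuousAt f a) {ε : ℝ} (hε : 0 < ε) :
    ∃ δ > 0, ∀ p ∈ K, ∀ y, dist p y < δ → dist (f p) (f y) < ε := by
  have h1 := hK.uniformContinuousAt_of_continuousAt f hf (Metric.dist_mem_uniformity hε)
  obtain ⟨δ, hδ, h2⟩ := Metric.mem_uniformity_dist.1 h1
  exact ⟨δ, hδ, fun p hp y hy => h2 hy hp⟩

lemma unif_nhd {E : Type*} [PseudoMetricSpace E] {K U : Set E} (hK : IsCompact K)
    (hU : IsOpen U) (hKU : K ⊆ U) : ∃ δ > 0, ∀ p ∈ K, ball p δ ⊆ U := by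
  obtain ⟨δ, hδ, h⟩ := hK.exists_thickening_subset_open hU hKU
  exact ⟨δ, hδ, fun p hp => (ball_subset_thickening hp δ).trans h⟩

/-- uniform second order Taylor estimate -/
theorem unif_taylor {E : Type*} [NormedAddCommGroup E] [NormedSpace ℝ E] {K U : Set E}
    (hK : IsCompact K) (hU : IsOpen U) (hKU : K ⊆ U) {q : E → ℝ} (hq : ContDiffOn ℝ 2 q U)
    {ε : ℝ} (hε : 0 < ε) :
    ∃ r : ℝ, 0 < r ∧ ∀ p ∈ K, ∀ v : E, ‖v‖ < r →
      |q (p + v) - q p - fderiv ℝ q p v - (1 / 2) * fderiv ℝ (fderiv ℝ q) p v v| ≤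
        ε * ‖v‖ ^ 2 := by
  have hat : ∀ x ∈ U, ContDiffAt ℝ 2 q x := fun x hx => hq.contDiffAt (hU.mem_nhds hx)
  have hat1 : ∀ x ∈ U, ContDiffAt ℝ 1 (fderiv ℝ q) x := fun x hx =>
    (hat x hx).fderiv_right (m := 1) (by norm_num)
  have hat0 : ∀ x ∈ U, ContDiffAt ℝ 0 (fderiv ℝ (fderiv ℝ q)) x := fun x hx =>
    (hat1 x hx).fderiv_right (m := 0) (by norm_num)
  obtain ⟨δ₀, hδ₀, hUδ⟩ := unif_nhd hK hU hKU
  obtain ⟨δ₁, hδ₁, hB⟩ := unif_cont hK (f := fderiv ℝ (fderiv ℝ q))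
    (fun a ha => (hat0 a (hKU ha)).continuousAt) hε
  refine ⟨min δ₀ δ₁, lt_min hδ₀ hδ₁, fun p hp v hv => ?_⟩
  set r := min δ₀ δ₁ with hr
  set B := fderiv ℝ (fderiv ℝ q) p with hBdef
  have hmem : ∀ u : E, ‖u‖ < r → p + u ∈ U ∧ ‖fderiv ℝ (fderiv ℝ q) (p + u) - B‖ ≤ ε := by
    intro u hu
    have h1 : dist p (p + u) < r := by rw [dist_self_add_right]; exact hu
    constructor
    · apply hUδ p hp
      rw [mem_ball, dist_comm]
      exact h1.trans_le (min_le_left _ _)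
    · have := hB p hp (p + u) (h1.trans_le (min_le_right _ _))
      rw [dist_comm, dist_eq_norm] at this
      exact this.le
  have hsymm : ∀ a b : E, B a b = B b a := fun a b =>
    ((hat p (hKU hp)).isSymmSndFDerivAt (by simp)) a b
  -- first mean value step
  have h3 : ∀ u : E, ‖u‖ < r → ‖fderiv ℝ q (p + u) - fderiv ℝ q p - B u‖ ≤ ε * ‖u‖ := by
    intro u hu
    set G : E → (E →L[ℝ] ℝ) := fun y => fderiv ℝ q (p + y) - fderiv ℝ q p - B y with hG
    have hder : ∀ y ∈ closedBall (0 : E) ‖u‖,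
        HasFDerivWithinAt G (fderiv ℝ (fderiv ℝ q) (p + y) - B) (closedBall (0 : E) ‖u‖) y := by
      intro y hy
      have hy' : ‖y‖ < r := lt_of_le_of_lt (by simpa using hy) hu
      have d1 : HasFDerivAt (fderiv ℝ q) (fderiv ℝ (fderiv ℝ q) (p + y)) (p + y) :=
        ((hat1 _ (hmem y hy').1).differentiableAt (by simp)).hasFDerivAt
      have h6 : HasFDerivAt (fun y : E => p + y) (ContinuousLinearMap.id ℝ E) y :=
        (hasFDerivAt_id y).const_add p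
      have d2 : HasFDerivAt (fun y => fderiv ℝ q (p + y)) (fderiv ℝ (fderiv ℝ q) (p + y)) y :=
        HasFDerivAt.comp (g := fderiv ℝ q) (f := fun y : E => p + y) y d1 h6
      exact ((d2.sub_const (fderiv ℝ q p)).sub B.hasFDerivAt).hasFDerivWithinAt
    have key := (convex_closedBall (0 : E) ‖u‖).norm_image_sub_le_of_norm_hasFDerivWithin_le
      (f := G) (C := ε) hder
      (fun y hy => (hmem y (lt_of_le_of_lt (by simpa using hy) hu)).2) (x := 0) (y := u)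
      (by simp) (by simp)
    have hG0 : G 0 = 0 := by simp [hG]
    rw [hG0, sub_zero, sub_zero] at key
    exact key
  set F : E → ℝ := fun u => q (p + u) - q p - fderiv ℝ q p u - (1 / 2) * B u u with hF
  have hder : ∀ u : E, ‖u‖ < r → HasFDerivAt F (fderiv ℝ q (p + u) - fderiv ℝ q p - B u) u := by
    intro u hu
    have d1 : HasFDerivAt (fun u => q (p + u)) (fderiv ℝ q (p + u)) u := by
      have h6 : HasFDerivAt (fun u : E => p + u) (ContinuousLinearMap.id ℝ E) u :=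
        (hasFDerivAt_id u).const_add p
      exact HasFDerivAt.comp (g := q) (f := fun u : E => p + u) u
        ((hat _ (hmem u hu).1).differentiableAt (by simp)).hasFDerivAt h6
    have d2 : HasFDerivAt (fun u => fderiv ℝ q p u) (fderiv ℝ q p) u :=
      (fderiv ℝ q p).hasFDerivAt
    have d3 : HasFDerivAt (fun u => B u u) (B u + B.flip u) u := by
      have := B.hasFDerivAt (x := u)
      have h5 := this.clm_apply (hasFDerivAt_id u)
      refine h5.congr_fderiv ?_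
      ext a
      simp
    have d4 := ((d1.sub_const (q p)).sub d2).sub (d3.const_mul (1 / 2 : ℝ))
    refine d4.congr_fderiv ?_
    ext a
    simp [hsymm a u]
    ring
  have hbound : ∀ u ∈ closedBall (0 : E) ‖v‖, ‖fderiv ℝ q (p + u) - fderiv ℝ q p - B u‖ ≤
      ε * ‖v‖ := by
    intro u hu
    have hu1 : ‖u‖ ≤ ‖v‖ := by simpa using hu
    exact (h3 u (lt_of_le_of_lt hu1 hv)).trans (mul_le_mul_of_nonneg_left hu1 hε.le)
  have key := (convex_closedBall (0 : E) ‖v‖).norm_image_sub_le_of_norm_hasFDerivWithin_le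
    (f := F) (f' := fun u => fderiv ℝ q (p + u) - fderiv ℝ q p - B u) (C := ε * ‖v‖)
    (fun u hu => (hder u (lt_of_le_of_lt (by simpa using hu) hv)).hasFDerivWithinAt) hbound
    (x := 0) (y := v) (by simp) (by simp)
  have hF0 : F 0 = 0 := by simp [hF]
  rw [hF0, sub_zero, sub_zero, Real.norm_eq_abs] at key
  calc |q (p + v) - q p - fderiv ℝ q p v - 1 / 2 * B v v| = |F v| := rfl
    _ ≤ ε * ‖v‖ * ‖v‖ := key
    _ = ε * ‖v‖ ^ 2 := by ring

variable {n : ℕ}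

lemma posSemidef_of_qf {P : Matrix (Fin n) (Fin n) ℂ} (hP : P.IsHermitian)
    (h : ∀ ζ, 0 ≤ qf P ζ) : P.PosSemidef := by
  refine Matrix.PosSemidef.of_dotProduct_mulVec_nonneg hP fun x => ?_
  have h1 := h (star x)
  rw [qf_eq_dot, star_star, star_star] at h1
  rw [Complex.le_def]
  refine ⟨h1, ?_⟩
  rw [Complex.zero_im]
  have h2 : star (star x ⬝ᵥ P.mulVec x) = star x ⬝ᵥ P.mulVec x := by
    rw [← Matrix.star_dotProduct_star, star_star, Matrix.star_mulVec, hP.eq,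
      ← Matrix.dotProduct_mulVec]
  have h3 := congrArg Complex.im h2
  rw [Complex.star_def, Complex.conj_im] at h3
  linarith

section
variable {K U : Set (Cm n)} {w : Cm n → Matrix (Fin n) (Fin n) ℂ}

lemma continuousOn_qf2 (S : Set (Cm n)) (hcK : ∀ i j, ContinuousOn (fun z => w z i j) K) :
    ContinuousOn (fun x : Cm n × Cm n => qf (w x.1) x.2) (K ×ˢ S) := by
  have h1 : ∀ j k, ContinuousOn (fun x : Cm n × Cm n => w x.1 j k) (K ×ˢ S) := fun j k =>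
    (hcK j k).comp continuous_fst.continuousOn fun x hx => hx.1
  have h2 : ∀ j, ContinuousOn (fun x : Cm n × Cm n => x.2 j) (K ×ˢ S) := fun j =>
    ((continuous_apply j).comp continuous_snd).continuousOn
  have h3 : ∀ j, ContinuousOn (fun x : Cm n × Cm n => conj (x.2 j)) (K ×ˢ S) := fun j =>
    Complex.continuous_conj.comp_continuousOn (h2 j)
  have h4 : ContinuousOn (fun x : Cm n × Cm n => ∑ j, ∑ k, w x.1 j k * x.2 j * conj (x.2 k))
      (K ×ˢ S) := by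
    refine continuousOn_finsetSum _ fun j _ => continuousOn_finsetSum _ fun k _ => ?_
    exact ((h1 j k).mul (h2 j)).mul (h3 k)
  exact Complex.continuous_re.comp_continuousOn h4

lemma unif_lower (hK : IsCompact K) (hKne : K.Nonempty)
    (hcK : ∀ i j, ContinuousOn (fun z => w z i j) K)
    (hpos : ∀ z ∈ K, (w z).PosDef) :
    ∃ m : ℝ, 0 < m ∧ ∀ q ∈ K, ∀ ζ, m * ‖ζ‖ ^ 2 ≤ qf (w q) ζ := by
  by_cases hn : ∃ v : Cm n, v ≠ 0
  swap
  · push Not at hn
    exact ⟨1, one_pos, fun q _ ζ => by rw [hn ζ, qf_zero]; simp⟩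
  obtain ⟨v, hv⟩ := hn
  have hv' : ‖v‖ ≠ 0 := norm_ne_zero_iff.2 hv
  have hS : (Metric.sphere (0 : Cm n) 1).Nonempty := by
    refine ⟨((‖v‖⁻¹ : ℝ) : ℂ) • v, ?_⟩
    rw [mem_sphere_zero_iff_norm, norm_smul, Complex.norm_real, norm_inv, norm_norm,
      inv_mul_cancel₀ hv']
  have hcont := continuousOn_qf2 (sphere (0 : Cm n) 1) hcK
  have hex : ∃ m : ℝ, 0 < m ∧ ∀ q ∈ K, ∀ ζ ∈ sphere (0 : Cm n) 1, m ≤ qf (w q) ζ := by
    obtain ⟨x, hmem0, hmin⟩ := IsCompact.exists_isMinOn (hK.prod (isCompact_sphere (0 : Cm n) 1))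
      (hKne.prod hS) hcont
    have hζ1 : ‖x.2‖ = 1 := mem_sphere_zero_iff_norm.1 hmem0.2
    have hζ0 : x.2 ≠ 0 := by
      intro h; rw [h, norm_zero] at hζ1; exact zero_ne_one hζ1
    have hmin' := isMinOn_iff.1 hmin
    refine ⟨qf (w x.1) x.2, qf_pos (hpos x.1 hmem0.1) hζ0, fun q hq ζ hζ => ?_⟩
    exact hmin' (q, ζ) (Set.mk_mem_prod hq hζ)
  obtain ⟨m, hm0, hm⟩ := hex
  refine ⟨m, hm0, fun q hq ζ => ?_⟩
  by_cases hζ : ζ = 0
  · rw [hζ, qf_zero]; simp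
  have hζ' : 0 < ‖ζ‖ := norm_pos_iff.2 hζ
  have h1 : (((‖ζ‖⁻¹ : ℝ) : ℂ) • ζ) ∈ Metric.sphere (0 : Cm n) 1 := by
    rw [mem_sphere_zero_iff_norm, norm_smul, Complex.norm_real, norm_inv, norm_norm,
      inv_mul_cancel₀ hζ'.ne']
  have h2 := hm q hq _ h1
  rw [qf_smul] at h2
  have h3 : ‖ζ‖⁻¹ ^ 2 * qf (w q) ζ * ‖ζ‖ ^ 2 = qf (w q) ζ := by field_simp
  have h4 := mul_le_mul_of_nonneg_right h2 (sq_nonneg ‖ζ‖)
  rwa [h3] at h4

lemma unif_upper (hK : IsCompact K) (hcK : ∀ i j, ContinuousOn (fun z => w z i j) K) :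
    ∃ M : ℝ, 0 < M ∧ ∀ q ∈ K, ∀ ζ, qf (w q) ζ ≤ M * ‖ζ‖ ^ 2 := by
  have h1 : ∀ i j, ∃ C : ℝ, 0 ≤ C ∧ ∀ q ∈ K, ‖w q i j‖ ≤ C := by
    intro i j
    obtain ⟨C, hC⟩ := hK.exists_bound_of_continuousOn (hcK i j)
    exact ⟨max C 0, le_max_right _ _, fun q hq => (hC q hq).trans (le_max_left _ _)⟩
  choose C hC0 hC using h1
  set S : ℝ := ∑ i, ∑ j, C i j with hS
  have hS0 : 0 ≤ S := Finset.sum_nonneg fun i _ => Finset.sum_nonneg fun j _ => hC0 i j
  have hle : ∀ i j, C i j ≤ S := fun i j =>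
    (Finset.single_le_sum (f := fun j => C i j) (fun j _ => hC0 i j)
      (Finset.mem_univ j)).trans
    (Finset.single_le_sum (f := fun i => ∑ j, C i j)
      (fun i _ => Finset.sum_nonneg fun j _ => hC0 i j) (Finset.mem_univ i))
  refine ⟨(n : ℝ) ^ 2 * S + 1, by positivity, fun q hq ζ => ?_⟩
  have h2 := abs_qf_le (P := w q) (ε := S) (fun i j => (hC i j q hq).trans (hle i j)) ζ
  have h3 := le_abs_self (qf (w q) ζ)
  have h4 : (n : ℝ) ^ 2 * S * ‖ζ‖ ^ 2 ≤ ((n : ℝ) ^ 2 * S + 1) * ‖ζ‖ ^ 2 := by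
    have := sq_nonneg ‖ζ‖
    nlinarith
  linarith

lemma unif_entries (hK : IsCompact K) (hat : ∀ i j, ∀ a ∈ K, ContinuousAt (fun z => w z i j) a)
    {ε : ℝ} (hε0 : 0 < ε) :
    ∃ δ > 0, ∀ p ∈ K, ∀ y, dist p y < δ → ∀ ζ,
      |qf (w y) ζ - qf (w p) ζ| ≤ (n : ℝ) ^ 2 * ε * ‖ζ‖ ^ 2 := by
  have h1 : ∀ ij : Fin n × Fin n, ∃ δ : ℝ, 0 < δ ∧ ∀ p ∈ K, ∀ y, dist p y < δ →
      dist (w p ij.1 ij.2) (w y ij.1 ij.2) < ε := fun ij => unif_cont hK (hat ij.1 ij.2) hε0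
  choose δ1 hδ1 hδ1' using h1
  have h1' : ∃ δ : ℝ, 0 < δ ∧ ∀ ij, δ ≤ δ1 ij := by
    by_cases hn : (Finset.univ : Finset (Fin n × Fin n)).Nonempty
    · exact ⟨Finset.univ.inf' hn δ1, (Finset.lt_inf'_iff hn).2 fun ij _ => hδ1 ij,
        fun ij => Finset.inf'_le _ (Finset.mem_univ ij)⟩
    · exact ⟨1, one_pos, fun ij => absurd ⟨ij, Finset.mem_univ _⟩ hn⟩
  obtain ⟨δ, hδ, hle⟩ := h1'
  refine ⟨δ, hδ, fun p hp y hy ζ => ?_⟩
  rw [← qf_sub_mat]
  refine abs_qf_le (fun i j => ?_) ζ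
  have h2 := hδ1' (i, j) p hp y (hy.trans_le (hle (i, j)))
  rw [dist_comm, dist_eq_norm] at h2
  rw [Matrix.sub_apply]
  exact h2.le

lemma continuousOn_det (hw : ∀ i j, ContinuousOn (fun z => w z i j) U) :
    ContinuousOn (fun z => (w z).det.re) U := by
  refine Complex.continuous_re.comp_continuousOn ?_
  have : (fun z => (w z).det) = fun z => ∑ σ : Equiv.Perm (Fin n),
      (((Equiv.Perm.sign σ : ℤ) : ℂ)) * ∏ i, w z (σ i) i := by
    funext z
    rw [Matrix.det_apply']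
  rw [this]
  refine continuousOn_finsetSum _ fun σ _ => ContinuousOn.mul continuousOn_const ?_
  exact continuousOn_finsetProd _ fun i _ => hw _ _

lemma unif_det (hK : IsCompact K) (hKne : K.Nonempty) (hU : IsOpen U) (hKU : K ⊆ U)
    (hw : ∀ i j, ContinuousOn (fun z => w z i j) U) (hpos : ∀ z ∈ U, (w z).PosDef) :
    ∃ δ > 0, ∀ q ∈ K, ∀ z, dist q z < δ →
      (w z).det.re ≤ 2 * (w q).det.re ∧ (w q).det.re ≤ 2 * (w z).det.re := by
  have hdetc := continuousOn_det hw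
  have hdpos : ∀ z ∈ U, 0 < (w z).det.re := fun z hz => (Complex.pos_iff.1 (hpos z hz).det_pos).1
  obtain ⟨q0, hq0, hmin⟩ := hK.exists_isMinOn hKne (hdetc.mono hKU)
  obtain ⟨δb, hδb, hb⟩ := unif_cont hK (f := fun z => (w z).det.re)
    (fun a ha => hdetc.continuousAt (hU.mem_nhds (hKU ha)))
    (ε := (w q0).det.re / 2) (by have := hdpos q0 (hKU hq0); positivity)
  refine ⟨δb, hδb, fun q hq z hz => ?_⟩
  have e2 := hb q hq z hz
  have hmin' : (w q0).det.re ≤ (w q).det.re := hmin hq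
  rw [Real.dist_eq, abs_lt] at e2
  have := hdpos q (hKU hq)
  constructor
  · linarith [e2.1, e2.2]
  · linarith [e2.1, e2.2]

/-- uniform comparison of the metrics at nearby points -/
lemma unif_w (hK : IsCompact K) (hU : IsOpen U) (hKU : K ⊆ U)
    (hw : ∀ i j, ContinuousOn (fun z => w z i j) U)
    (hpos : ∀ z ∈ U, (w z).PosDef) :
    ∃ δ m M : ℝ, 0 < δ ∧ 0 < m ∧ 0 < M ∧
      (∀ q ∈ K, ∀ ζ, m * ‖ζ‖ ^ 2 ≤ qf (w q) ζ ∧ qf (w q) ζ ≤ M * ‖ζ‖ ^ 2) ∧
      ∀ q ∈ K, ∀ z, ‖z - q‖ < δ → z ∈ U ∧ (2 • w z - w q).PosSemidef ∧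
        (∀ ζ, qf (w z) ζ ≤ 2 * qf (w q) ζ) ∧ (w z).det.re ≤ 2 * (w q).det.re ∧
        (w q).det.re ≤ 2 * (w z).det.re := by
  rcases K.eq_empty_or_nonempty with rfl | hKne
  · exact ⟨1, 1, 1, one_pos, one_pos, one_pos, by simp, by simp⟩
  have hcK : ∀ i j, ContinuousOn (fun z => w z i j) K := fun i j => (hw i j).mono hKU
  obtain ⟨m, hm0, hm⟩ := unif_lower hK hKne hcK fun z hz => hpos z (hKU hz)
  obtain ⟨M, hM0, hM⟩ := unif_upper hK hcK
  obtain ⟨δa, hδa, ha⟩ := unif_entries hK (w := w)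
    (fun i j a ha => (hw i j).continuousAt (hU.mem_nhds (hKU ha)))
    (ε := m / (2 * ((n : ℝ) ^ 2 + 1))) (by positivity)
  obtain ⟨δb, hδb, hb⟩ := unif_det hK hKne hU hKU hw hpos
  obtain ⟨δc, hδc, hc⟩ := unif_nhd hK hU hKU
  refine ⟨min δa (min δb δc), m, M, by positivity, hm0, hM0,
    fun q hq ζ => ⟨hm q hq ζ, hM q hq ζ⟩, fun q hq z hz => ?_⟩
  have hd : dist q z < min δa (min δb δc) := by rw [dist_comm, dist_eq_norm]; exact hz
  have hzU : z ∈ U := hc q hq (by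
    rw [mem_ball, dist_comm]
    exact hd.trans_le ((min_le_right _ _).trans (min_le_right _ _)))
  have e2 := hb q hq z (hd.trans_le ((min_le_right _ _).trans (min_le_left _ _)))
  have e3 : ∀ ζ, |qf (w z) ζ - qf (w q) ζ| ≤ m / 2 * ‖ζ‖ ^ 2 := by
    intro ζ
    refine (ha q hq z (hd.trans_le (min_le_left _ _)) ζ).trans ?_
    refine mul_le_mul_of_nonneg_right ?_ (sq_nonneg _)
    rw [mul_div_assoc', div_le_div_iff₀ (by positivity) (by positivity)]
    nlinarith [sq_nonneg (n : ℝ)]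
  have hzP := hpos z hzU
  have hqP := hpos q (hKU hq)
  refine ⟨hzU, ?_, ?_, e2.1, e2.2⟩
  · refine posSemidef_of_qf ?_ fun ζ => ?_
    · have h2 : (2 • w z).IsHermitian := by
        rw [two_smul]
        exact hzP.isHermitian.add hzP.isHermitian
      exact h2.sub hqP.isHermitian
    · rw [qf_sub_mat, qf_nsmul_two]
      have h4 := abs_le.1 (e3 ζ)
      have h5 := hm q hq ζ
      nlinarith [h4.1, sq_nonneg ‖ζ‖]
  · intro ζ
    have h4 := abs_le.1 (e3 ζ)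
    have h5 := hm q hq ζ
    nlinarith [h4.2, sq_nonneg ‖ζ‖]

end

end Vale.Agent.P284.H888
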