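import Vale.Agent.P284.H888.Beta
import Vale.Agent.P284.H888.Unif
import Vale.Agent.P272.KOD.PeakC
import Vale.Agent.P272.K.C2.Wirt

/-!
# P284, LW: the peak function at a point
-/

open scoped Manifold ContDiff ComplexOrder Topology ComplexConjugate Matrix
open Complex Set Filter Metric MeasureTheory

noncomputable section

namespace Vale.Agent.P284.H888

open Vale.Agent.P272.K Vale.Agent.P272.K.AMP.Pole

variable {n : ℕ}

/-- the peak function -/
def pk (χ : ℝ → ℝ) (W : Matrix (Fin n) (Fin n) ℂ) (q : Cm n) (h : Cm n → ℂ) (k : ℕ) (ρ : ℝ)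
    (z : Cm n) : ℂ :=
  ((χ (k * qf W (z - q) / ρ) : ℝ) : ℂ) * Vale.Agent.P272.KOD.frm h k z

section
variable {χ : ℝ → ℝ} {C : ℝ} {W : Matrix (Fin n) (Fin n) ℂ} {q : Cm n} {h : Cm n → ℂ} {k : ℕ}
  {ρ : ℝ}

lemma contDiff_arg : ContDiff ℝ ∞ fun z => (k : ℝ) * qf W (z - q) / ρ :=
  (contDiff_const.mul contDiff_qf).div_const ρ

lemma contDiff_pk (hχ : Chi χ C) (hh : Differentiable ℂ h) :
    ContDiff ℝ ∞ (pk χ W q h k ρ) := by
  have h1 : ContDiff ℝ ∞ fun z => ((χ (k * qf W (z - q) / ρ) : ℝ) : ℂ) :=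
    Complex.ofRealCLM.contDiff.comp (hχ.sm.comp contDiff_arg)
  have h2 := Vale.Agent.P272.KOD.contDiff_of_differentiable
    (Vale.Agent.P272.KOD.differentiable_frm hh k)
  exact h1.mul h2

lemma dzb_pk (hχ : Chi χ C) (hh : Differentiable ℂ h) (hW : W.IsHermitian) (l : Fin n)
    (z : Cm n) :
    dzb l (pk χ W q h k ρ) z = ((deriv χ (k * qf W (z - q) / ρ) * (k / ρ) : ℝ) : ℂ) *
      ell W q l z * Vale.Agent.P272.KOD.frm h k z := by
  have hsm : Differentiable ℝ χ := hχ.sm.differentiable (by simp)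
  have hqd : DifferentiableAt ℝ (fun z => qf W (z - q)) z :=
    (contDiff_qf (P := W) (z0 := q)).contDiffAt.differentiableAt (by simp)
  have h0 : DifferentiableAt ℝ (fun z => χ (k * qf W (z - q) / ρ)) z :=
    (hsm _).comp z ((contDiff_arg (W := W) (q := q) (k := k) (ρ := ρ)).contDiffAt.differentiableAt
      (by simp))
  have h1 : dzb l (pk χ W q h k ρ) z =
      dzb l (fun y => ((χ (k * qf W (y - q) / ρ) : ℝ) : ℂ)) z *
        Vale.Agent.P272.KOD.frm h k z :=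
    Vale.Agent.P272.KOD.dzb_mul_holo h0 (Vale.Agent.P272.KOD.differentiable_frm hh k z) l
  have h2 : HasDerivAt (fun t => χ (k * t / ρ)) (deriv χ (k * qf W (z - q) / ρ) * (k / ρ))
      (qf W (z - q)) := by
    have h3 : HasDerivAt (fun t : ℝ => k * t / ρ) (k / ρ) (qf W (z - q)) := by
      have := ((hasDerivAt_id (qf W (z - q))).const_mul (k : ℝ)).div_const ρ
      simpa using this
    exact (hsm _).hasDerivAt.comp (qf W (z - q)) h3
  have h4 := Vale.Agent.P272.K.C2.dzb_comp_real (z := z) l (u := fun z => qf W (z - q)) h2 hqd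
  rw [h1, h4, dzb_qf hW]

lemma energy_eq (A : Matrix (Fin n) (Fin n) ℂ) (a : ℝ) (f : ℂ) (e : Fin n → ℂ) :
    (∑ l, ∑ b, A b l * ((a : ℂ) * e b * f) * conj ((a : ℂ) * e l * f)).re =
      a ^ 2 * ‖f‖ ^ 2 * (∑ l, ∑ b, A b l * e b * conj (e l)).re := by
  have h1 : ∑ l, ∑ b, A b l * ((a : ℂ) * e b * f) * conj ((a : ℂ) * e l * f) =
      ((a ^ 2 * ‖f‖ ^ 2 : ℝ) : ℂ) * ∑ l, ∑ b, A b l * e b * conj (e l) := by
    rw [Finset.mul_sum]
    refine Finset.sum_congr rfl fun l _ => ?_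
    rw [Finset.mul_sum]
    refine Finset.sum_congr rfl fun b _ => ?_
    rw [map_mul, map_mul, Complex.conj_ofReal]
    have h2 : ((‖f‖ ^ 2 : ℝ) : ℂ) = f * conj f := by
      rw [Complex.mul_conj, Complex.normSq_eq_norm_sq]
    rw [Complex.ofReal_mul, h2]
    push_cast
    ring
  rw [h1, Complex.re_ofReal_mul]

/-- the data near a point -/
structure Near (U : Set (Cm n)) (φ : Cm n → ℝ) (w : Cm n → Matrix (Fin n) (Fin n) ℂ) (q : Cm n)
    (h : Cm n → ℂ) (m δ : ℝ) : Prop where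
  m_pos : 0 < m
  δ_pos : 0 < δ
  pos : (w q).PosDef
  low : ∀ ζ, m * ‖ζ‖ ^ 2 ≤ qf (w q) ζ
  hol : Differentiable ℂ h
  mem : ∀ z, ‖z - q‖ < δ → z ∈ U
  posz : ∀ z, ‖z - q‖ < δ → (w z).PosDef
  half : ∀ z, ‖z - q‖ < δ → (2 • w z - w q).PosSemidef
  det_le : ∀ z, ‖z - q‖ < δ → (w z).det.re ≤ 2 * (w q).det.re
  le_det : ∀ z, ‖z - q‖ < δ → (w q).det.re ≤ 2 * (w z).det.re
  lower : ∀ z, ‖z - q‖ < δ → qf (w q) (z - q) / 3 ≤ φ z - (h z).re
  upper : ∀ z, ‖z - q‖ < δ → φ z - (h z).re ≤ 2 * qf (w q) (z - q)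

section
variable {U : Set (Cm n)} {φ : Cm n → ℝ} {w : Cm n → Matrix (Fin n) (Fin n) ℂ} {m δ : ℝ}

lemma Near.close (N : Near U φ w q h m δ) (hk : 1 ≤ k) (hρ : 8 ≤ ρ)
    (hδ : ρ / (2 * k) < m * δ ^ 2) {z : Cm n} (hz : k * qf (w q) (z - q) / ρ ≤ 1 / 2) :
    ‖z - q‖ < δ := by
  have hk' : (0 : ℝ) < k := by exact_mod_cast hk
  have hρ' : 0 < ρ := by linarith
  rw [div_le_iff₀ hρ'] at hz
  have h1 := N.low (z - q)
  have h2 : qf (w q) (z - q) ≤ ρ / (2 * k) := by
    rw [le_div_iff₀ (by positivity)]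
    linarith
  have h3 : m * ‖z - q‖ ^ 2 < m * δ ^ 2 := by linarith
  have h4 := lt_of_mul_lt_mul_left h3 N.m_pos.le
  exact lt_of_pow_lt_pow_left₀ 2 N.δ_pos.le h4

lemma Near.det_pos (N : Near U φ w q h m δ) {z : Cm n} (hz : ‖z - q‖ < δ) :
    0 < (w z).det.re := (Complex.pos_iff.1 (N.posz z hz).det_pos).1

lemma Near.detq_pos (N : Near U φ w q h m δ) : 0 < (w q).det.re :=
  (Complex.pos_iff.1 N.pos.det_pos).1

lemma Near.energy (N : Near U φ w q h m δ) (hχ : Chi χ C) (hk : 1 ≤ k) (hρ : 8 ≤ ρ)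
    (hδ : ρ / (2 * k) < m * δ ^ 2) (z : Cm n) :
    0 ≤ (∑ l, ∑ b, (w z)⁻¹ b l * dzb b (pk χ (w q) q h k ρ) z *
      conj (dzb l (pk χ (w q) q h k ρ) z)).re * ((w z).det.re * Real.exp (-(k * φ z))) ∧
    (∑ l, ∑ b, (w z)⁻¹ b l * dzb b (pk χ (w q) q h k ρ) z *
      conj (dzb l (pk χ (w q) q h k ρ) z)).re * ((w z).det.re * Real.exp (-(k * φ z))) ≤
      2 * C ^ 2 * (k / ρ) * Real.exp (-ρ / 12) *
        (beta (qf (w q) (z - q) / (ρ / k)) * (w q).det.re) := by
  have hk' : (0 : ℝ) < k := by exact_mod_cast hk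
  have hρ' : 0 < ρ := by linarith
  have hC := hχ.C_pos
  have hD := N.detq_pos
  have hq0 : 0 ≤ qf (w q) (z - q) := qf_nonneg N.pos _
  set t : ℝ := k * qf (w q) (z - q) / ρ with ht
  have ht0 : 0 ≤ t := by positivity
  have hR0 : 0 ≤ 2 * C ^ 2 * (k / ρ) * Real.exp (-ρ / 12) *
        (beta (qf (w q) (z - q) / (ρ / k)) * (w q).det.re) := by
    have := beta_nonneg (qf (w q) (z - q) / (ρ / k))
    positivity
  simp only [dzb_pk hχ N.hol N.pos.isHermitian]
  rw [energy_eq]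
  by_cases hcase : 1 / 4 ≤ t ∧ t ≤ 1 / 2
  swap
  · have hd0 : deriv χ t = 0 := by
      by_cases h1 : t < 1 / 4
      · exact hχ.deriv_zero_in (by rwa [abs_of_nonneg ht0])
      · refine hχ.deriv_zero_out ?_
        rw [abs_of_nonneg ht0]
        by_contra h2
        exact hcase ⟨not_lt.1 h1, not_lt.1 h2⟩
    rw [hd0]
    simp only [zero_mul, ne_eq, OfNat.ofNat_ne_zero, not_false_eq_true, zero_pow]
    exact ⟨le_refl 0, hR0⟩
  obtain ⟨ht1, ht2⟩ := hcase
  have hz : ‖z - q‖ < δ := N.close hk hρ hδ ht2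
  have hE := inv_energy_le (N.posz z hz) N.pos (N.half z hz) q z
  set E := (∑ l, ∑ b, (w z)⁻¹ b l * ell (w q) q b z * conj (ell (w q) q l z)).re with hEdef
  have hdz := N.det_pos hz
  rw [Vale.Agent.P272.KOD.norm_frm_sq]
  refine ⟨?_, ?_⟩
  · have := hE.1
    positivity
  have hb : beta (qf (w q) (z - q) / (ρ / k)) = 1 := by
    refine beta_one ?_
    have : qf (w q) (z - q) / (ρ / k) = t := by
      rw [ht]
      field_simp
    rw [this]
    linarith
  rw [hb, one_mul]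
  have h1 : (deriv χ t * (k / ρ)) ^ 2 ≤ (C * (k / ρ)) ^ 2 := by
    rw [mul_pow, mul_pow]
    have := hχ.deriv_le t
    have h2 : deriv χ t ^ 2 ≤ C ^ 2 := by
      rw [← sq_abs (deriv χ t)]
      exact pow_le_pow_left₀ (abs_nonneg _) this 2
    gcongr
  have h3 : qf (w q) (z - q) ≤ ρ / (2 * k) := by
    rw [le_div_iff₀ (by positivity)]
    rw [ht, div_le_iff₀ hρ'] at ht2
    linarith
  have h4 : Real.exp (k * (h z).re) * Real.exp (-(k * φ z)) ≤ Real.exp (-ρ / 12) := by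
    rw [← Real.exp_add]
    apply Real.exp_le_exp.2
    have h5 := N.lower z hz
    rw [ht, le_div_iff₀ hρ'] at ht1
    nlinarith
  have h6 : E ≤ ρ / k := by
    have : 2 * (ρ / (2 * k)) = ρ / k := by field_simp
    linarith [hE.2]
  calc (deriv χ t * (k / ρ)) ^ 2 * Real.exp (k * (h z).re) * E *
        ((w z).det.re * Real.exp (-(k * φ z)))
      = (deriv χ t * (k / ρ)) ^ 2 * E * (w z).det.re *
        (Real.exp (k * (h z).re) * Real.exp (-(k * φ z))) := by ring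
    _ ≤ (C * (k / ρ)) ^ 2 * (ρ / k) * (2 * (w q).det.re) * Real.exp (-ρ / 12) := by
        have := hE.1
        have := N.det_le z hz
        gcongr
    _ = 2 * C ^ 2 * (k / ρ) * Real.exp (-ρ / 12) * (w q).det.re := by
        field_simp

lemma Near.mass (N : Near U φ w q h m δ) (hχ : Chi χ C) (hk : 1 ≤ k) (hρ : 8 ≤ ρ)
    (hδ : ρ / (2 * k) < m * δ ^ 2) (z : Cm n) :
    Real.exp (-4) / 2 * (beta (qf (w q) (z - q) / (1 / k)) * (w q).det.re) ≤
      ‖pk χ (w q) q h k ρ z‖ ^ 2 * ((w z).det.re * Real.exp (-(k * φ z))) := by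
  have hk' : (0 : ℝ) < k := by exact_mod_cast hk
  have hρ' : 0 < ρ := by linarith
  have hD := N.detq_pos
  have hq0 : 0 ≤ qf (w q) (z - q) := qf_nonneg N.pos _
  set t : ℝ := k * qf (w q) (z - q) / ρ with ht
  have ht0 : 0 ≤ t := by positivity
  have hs : qf (w q) (z - q) / (1 / k) = k * qf (w q) (z - q) := by
    field_simp
  have hst : k * qf (w q) (z - q) = t * ρ := by
    rw [ht]
    field_simp
  by_cases h1 : t ≤ 1 / 2
  swap
  · push Not at h1
    have h2 : beta (qf (w q) (z - q) / (1 / k)) = 0 := by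
      refine beta_zero ?_
      rw [hs, hst]
      nlinarith
    have h3 : pk χ (w q) q h k ρ z = 0 := by
      unfold pk
      rw [← ht, hχ.zero t (by rw [abs_of_nonneg ht0]; exact h1.le), Complex.ofReal_zero, zero_mul]
    rw [h2, h3]
    simp
  have hz : ‖z - q‖ < δ := N.close hk hρ hδ h1
  have hdz := N.det_pos hz
  by_cases h2 : 2 ≤ k * qf (w q) (z - q)
  · rw [hs, beta_zero h2, zero_mul, mul_zero]
    positivity
  push Not at h2
  have h3 : t ≤ 1 / 4 := by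
    rw [ht, div_le_iff₀ hρ']
    linarith
  have h4 : ‖pk χ (w q) q h k ρ z‖ ^ 2 = Real.exp (k * (h z).re) := by
    unfold pk
    rw [← ht, hχ.one t (by rw [abs_of_nonneg ht0]; exact h3), Complex.ofReal_one, one_mul,
      Vale.Agent.P272.KOD.norm_frm_sq]
  have h5 : Real.exp (-4) ≤ Real.exp (k * (h z).re) * Real.exp (-(k * φ z)) := by
    rw [← Real.exp_add]
    apply Real.exp_le_exp.2
    have h6 := N.upper z hz
    nlinarith
  have h7 := N.le_det z hz
  have h8 := beta_le_one (qf (w q) (z - q) / (1 / k))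
  have h9 := beta_nonneg (qf (w q) (z - q) / (1 / k))
  rw [h4]
  calc Real.exp (-4) / 2 * (beta (qf (w q) (z - q) / (1 / k)) * (w q).det.re)
      ≤ Real.exp (-4) / 2 * (1 * (w q).det.re) := by gcongr
    _ ≤ Real.exp (-4) / 2 * (1 * (2 * (w z).det.re)) := by gcongr
    _ = Real.exp (-4) * (w z).det.re := by ring
    _ ≤ (Real.exp (k * (h z).re) * Real.exp (-(k * φ z))) * (w z).det.re := by gcongr
    _ = _ := by ring

lemma Near.tsupp (N : Near U φ w q h m δ) (hχ : Chi χ C) (hk : 1 ≤ k) (hρ : 8 ≤ ρ)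
    (hδ : ρ / (2 * k) < m * δ ^ 2) {z : Cm n} (hz : z ∈ tsupport (pk χ (w q) q h k ρ)) :
    ‖z - q‖ < δ ∧ k * qf (w q) (z - q) / ρ ≤ 1 / 2 := by
  have hk' : (0 : ℝ) < k := by exact_mod_cast hk
  have hρ' : 0 < ρ := by linarith
  have hcl : IsClosed {z : Cm n | k * qf (w q) (z - q) / ρ ≤ 1 / 2} :=
    isClosed_le (contDiff_arg).continuous continuous_const
  have h1 : tsupport (pk χ (w q) q h k ρ) ⊆ {z : Cm n | k * qf (w q) (z - q) / ρ ≤ 1 / 2} := by
    refine closure_minimal (fun y hy => ?_) hcl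
    by_contra h2
    simp only [mem_ofPred_eq, not_le] at h2
    apply hy
    have h3 : 0 ≤ k * qf (w q) (y - q) / ρ := by
      have := qf_nonneg N.pos (y - q)
      positivity
    unfold pk
    rw [hχ.zero _ (by rw [abs_of_nonneg h3]; exact h2.le), Complex.ofReal_zero, zero_mul]
  exact ⟨N.close hk hρ hδ (h1 hz), h1 hz⟩

lemma Near.compact (N : Near U φ w q h m δ) (hχ : Chi χ C) (hk : 1 ≤ k) (hρ : 8 ≤ ρ)
    (hδ : ρ / (2 * k) < m * δ ^ 2) : HasCompactSupport (pk χ (w q) q h k ρ) := by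
  refine (isCompact_closedBall q δ).of_isClosed_subset (isClosed_tsupport _) fun z hz => ?_
  rw [mem_closedBall, dist_eq_norm]
  exact (N.tsupp hχ hk hρ hδ hz).1.le

lemma pk_self (hχ : Chi χ C) : pk χ (w q) q h k ρ q ≠ 0 := by
  unfold pk
  rw [sub_self, qf_zero, mul_zero, zero_div, hχ.one 0 (by norm_num), Complex.ofReal_one, one_mul]
  exact Vale.Agent.P272.KOD.frm_ne _ _ _

/-- **the energy estimate** -/
lemma Near.estimate (N : Near U φ w q h m δ) (hχ : Chi χ C) (hk : 1 ≤ k) (hρ : 8 ≤ ρ)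
    (hρC : 2 * C ^ 2 * (ρ ^ n / ρ) * Real.exp (-ρ / 12) ≤ Real.exp (-4) / 200)
    (hδ : ρ / (2 * k) < m * δ ^ 2) (hwc : ContinuousOn (fun z => (w z).det.re) U)
    (hφc : ContinuousOn φ U) :
    (∫ z, (∑ l, ∑ b, (w z)⁻¹ b l * dzb b (pk χ (w q) q h k ρ) z *
      conj (dzb l (pk χ (w q) q h k ρ) z)).re * ((w z).det.re * Real.exp (-(k * φ z)))) ≤
      k / 100 * ∫ z, ‖pk χ (w q) q h k ρ z‖ ^ 2 * ((w z).det.re * Real.exp (-(k * φ z))) := by
  have hk' : (0 : ℝ) < k := by exact_mod_cast hk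
  have hρ' : 0 < ρ := by linarith
  have hE : (∫ z, (∑ l, ∑ b, (w z)⁻¹ b l * dzb b (pk χ (w q) q h k ρ) z *
      conj (dzb l (pk χ (w q) q h k ρ) z)).re * ((w z).det.re * Real.exp (-(k * φ z)))) ≤
      2 * C ^ 2 * (k / ρ) * Real.exp (-ρ / 12) * ((ρ / k) ^ n * vol n) := by
    rw [← integral_beta_qf N.pos q (by positivity), ← integral_const_mul]
    refine integral_mono_of_nonneg (Eventually.of_forall fun z => (N.energy hχ hk hρ hδ z).1)
      ?_ (Eventually.of_forall fun z => (N.energy hχ hk hρ hδ z).2)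
    exact (integrable_beta_qf N.pos q (by positivity) _).const_mul _
  have hM : Real.exp (-4) / 2 * ((1 / k) ^ n * vol n) ≤
      ∫ z, ‖pk χ (w q) q h k ρ z‖ ^ 2 * ((w z).det.re * Real.exp (-(k * φ z))) := by
    rw [← integral_beta_qf N.pos q (by positivity), ← integral_const_mul]
    refine integral_mono_of_nonneg (Eventually.of_forall fun z => ?_) ?_
      (Eventually.of_forall fun z => N.mass hχ hk hρ hδ z)
    · have := N.detq_pos
      have := beta_nonneg (qf (w q) (z - q) / (1 / k))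
      show 0 ≤ _
      positivity
    · have hT : tsupport (pk χ (w q) q h k ρ) ⊆ U := fun z hz =>
        N.mem z (N.tsupp hχ hk hρ hδ hz).1
      have hc : ContinuousOn (fun z => ‖pk χ (w q) q h k ρ z‖ ^ 2 *
          ((w z).det.re * Real.exp (-(k * φ z)))) (tsupport (pk χ (w q) q h k ρ)) := by
        have h1 : Continuous fun z => ‖pk χ (w q) q h k ρ z‖ ^ 2 :=
          (contDiff_pk hχ N.hol).continuous.norm.pow 2
        refine h1.continuousOn.mul ((hwc.mono hT).mul ?_)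
        exact Real.continuous_exp.comp_continuousOn
          (continuousOn_const.mul (hφc.mono hT)).neg
      refine (integrableOn_iff_integrable_of_support_subset ?_).1
        (hc.integrableOn_compact (N.compact hχ hk hρ hδ))
      intro z hz
      apply subset_tsupport
      intro h0
      apply hz
      show ‖pk χ (w q) q h k ρ z‖ ^ 2 * _ = 0
      rw [h0]
      simp
  have hV := vol_pos n
  refine hE.trans ?_
  have h1 : (k : ℝ) / 100 * (Real.exp (-4) / 2 * ((1 / k) ^ n * vol n)) ≤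
      k / 100 * ∫ z, ‖pk χ (w q) q h k ρ z‖ ^ 2 * ((w z).det.re * Real.exp (-(k * φ z))) := by
    gcongr
  refine le_trans ?_ h1
  calc 2 * C ^ 2 * (k / ρ) * Real.exp (-ρ / 12) * ((ρ / k) ^ n * vol n)
      = (2 * C ^ 2 * (ρ ^ n / ρ) * Real.exp (-ρ / 12)) * (k * (1 / k) ^ n * vol n) := by
        rw [div_pow, div_pow, one_pow]
        field_simp
    _ ≤ Real.exp (-4) / 200 * (k * (1 / k) ^ n * vol n) := by gcongr
    _ = _ := by ring

end
end
end Vale.Agent.P284.H888
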