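import Vale.Agent.P272.K.AMP.Pole.Quad

/-!
# P284, LW: algebra of the Hermitian form `qf`
-/

open scoped Manifold ContDiff ComplexOrder Topology ComplexConjugate Matrix
open Complex Set Filter

noncomputable section

namespace Vale.Agent.P284.H888

open Vale.Agent.P272.K Vale.Agent.P272.K.AMP.Pole

variable {n : ℕ} {P R : Matrix (Fin n) (Fin n) ℂ}

lemma qf_sub_mat (ζ : Cm n) : qf (P - R) ζ = qf P ζ - qf R ζ := by
  unfold qf
  rw [← Complex.sub_re, ← Finset.sum_sub_distrib]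
  congr 1
  refine Finset.sum_congr rfl fun j _ => ?_
  rw [← Finset.sum_sub_distrib]
  exact Finset.sum_congr rfl fun k _ => by rw [Matrix.sub_apply]; ring

lemma qf_smul_mat (c : ℝ) (ζ : Cm n) : qf ((c : ℂ) • P) ζ = c * qf P ζ := by
  unfold qf
  rw [← Complex.re_ofReal_mul, Finset.mul_sum]
  congr 1
  refine Finset.sum_congr rfl fun j _ => ?_
  rw [Finset.mul_sum]
  exact Finset.sum_congr rfl fun k _ => by rw [Matrix.smul_apply, smul_eq_mul]; ring

lemma qf_nsmul_two (ζ : Cm n) : qf (2 • P) ζ = 2 * qf P ζ := by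
  have : (2 • P : Matrix (Fin n) (Fin n) ℂ) = ((2 : ℝ) : ℂ) • P := by
    ext i j
    simp [Matrix.smul_apply]
  rw [this, qf_smul_mat]

lemma qf_nonneg' (h : P.PosSemidef) (ζ : Cm n) : 0 ≤ qf P ζ := by
  rw [qf_eq_dot]
  exact (Complex.le_def.1 (h.dotProduct_mulVec_nonneg (star ζ))).1

lemma qf_mono (h : (P - R).PosSemidef) (ζ : Cm n) : qf R ζ ≤ qf P ζ := by
  have := qf_nonneg' h ζ
  rw [qf_sub_mat] at this
  linarith

lemma qf_add_add (a b : Cm n) : qf P (a + b) + qf P (a - b) = 2 * qf P a + 2 * qf P b := by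
  unfold qf
  have e : ∀ x : ℂ, 2 * x.re = (2 * x).re := fun x => by simp
  rw [← Complex.add_re, e, e, ← Complex.add_re]
  congr 1
  rw [Finset.mul_sum, Finset.mul_sum, ← Finset.sum_add_distrib, ← Finset.sum_add_distrib]
  refine Finset.sum_congr rfl fun j _ => ?_
  rw [Finset.mul_sum, Finset.mul_sum, ← Finset.sum_add_distrib, ← Finset.sum_add_distrib]
  refine Finset.sum_congr rfl fun k _ => ?_
  simp only [Pi.add_apply, Pi.sub_apply, map_add, map_sub]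
  ring

lemma qf_add_le (h : P.PosSemidef) (a b : Cm n) : qf P (a + b) ≤ 2 * qf P a + 2 * qf P b := by
  have h1 := qf_add_add (P := P) a b
  have h2 := qf_nonneg' h (a - b)
  linarith

lemma qf_neg (a : Cm n) : qf P (-a) = qf P a := by
  unfold qf
  congr 1
  refine Finset.sum_congr rfl fun j _ => Finset.sum_congr rfl fun k _ => ?_
  simp

lemma abs_qf_le {ε : ℝ} (h : ∀ i j, ‖P i j‖ ≤ ε) (ζ : Cm n) :
    |qf P ζ| ≤ (n : ℝ) ^ 2 * ε * ‖ζ‖ ^ 2 := by
  unfold qf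
  refine (Complex.abs_re_le_norm _).trans ?_
  refine (norm_sum_le _ _).trans ?_
  have h1 : ∀ j : Fin n, ‖∑ k, P j k * ζ j * conj (ζ k)‖ ≤ n * (ε * ‖ζ‖ ^ 2) := by
    intro j
    refine (norm_sum_le _ _).trans ?_
    have h2 : ∀ k : Fin n, ‖P j k * ζ j * conj (ζ k)‖ ≤ ε * ‖ζ‖ ^ 2 := by
      intro k
      rw [norm_mul, norm_mul, Complex.norm_conj]
      have h3 : ‖ζ j‖ ≤ ‖ζ‖ := norm_le_pi_norm ζ j
      have h4 : ‖ζ k‖ ≤ ‖ζ‖ := norm_le_pi_norm ζ k
      have h5 := h j k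
      have h6 : 0 ≤ ε := (norm_nonneg _).trans h5
      calc ‖P j k‖ * ‖ζ j‖ * ‖ζ k‖ ≤ ε * ‖ζ‖ * ‖ζ‖ := by gcongr
        _ = ε * ‖ζ‖ ^ 2 := by ring
    calc ∑ k, ‖P j k * ζ j * conj (ζ k)‖ ≤ ∑ _k : Fin n, ε * ‖ζ‖ ^ 2 :=
          Finset.sum_le_sum fun k _ => h2 k
      _ = n * (ε * ‖ζ‖ ^ 2) := by simp
  calc ∑ j, ‖∑ k, P j k * ζ j * conj (ζ k)‖ ≤ ∑ _j : Fin n, n * (ε * ‖ζ‖ ^ 2) :=
        Finset.sum_le_sum fun j _ => h1 j
    _ = (n : ℝ) ^ 2 * ε * ‖ζ‖ ^ 2 := by simp; ring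

/-- the energy of `∂̄` of a function of `qf P` measured with a metric `A ≥ P / 2` -/
lemma inv_energy_le {A : Matrix (Fin n) (Fin n) ℂ} (hA : A.PosDef) (hP : P.PosDef)
    (hAP : (2 • A - P).PosSemidef) (z0 z : Cm n) :
    0 ≤ (∑ l, ∑ b, A⁻¹ b l * ell P z0 b z * conj (ell P z0 l z)).re ∧
    (∑ l, ∑ b, A⁻¹ b l * ell P z0 b z * conj (ell P z0 l z)).re ≤ 2 * qf P (z - z0) := by
  set x : Cm n := star (z - z0) with hx
  set y : Cm n := A⁻¹.mulVec (P.mulVec x) with hy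
  have hdet : IsUnit A.det := (Matrix.isUnit_iff_isUnit_det A).1 hA.isUnit
  have hell : ∀ b, conj (ell P z0 b z) = (P.mulVec x) b := by
    intro b
    unfold ell
    rw [map_sum]
    simp only [Matrix.mulVec, dotProduct, hx, Pi.star_apply]
    refine Finset.sum_congr rfl fun j _ => ?_
    have h3 : conj (P j b) = P b j := by
      have := congrFun (congrFun hP.isHermitian b) j
      rwa [Matrix.conjTranspose_apply] at this
    rw [map_mul, h3]
    rfl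
  have hell' : ∀ b, ell P z0 b z = star (P.mulVec x) b := by
    intro b
    rw [Pi.star_apply, ← hell b]
    exact (star_star _).symm
  have hE : ∑ l, ∑ b, A⁻¹ b l * ell P z0 b z * conj (ell P z0 l z) =
      star (P.mulVec x) ⬝ᵥ y := by
    rw [Finset.sum_comm]
    simp only [dotProduct]
    refine Finset.sum_congr rfl fun b _ => ?_
    rw [← hell' b, hy]
    simp only [Matrix.mulVec, dotProduct]
    rw [Finset.mul_sum]
    refine Finset.sum_congr rfl fun l _ => ?_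
    rw [hell l]
    simp only [Matrix.mulVec, dotProduct]
    ring
  have hAy : A.mulVec y = P.mulVec x := by
    rw [hy, Matrix.mulVec_mulVec, Matrix.mul_nonsing_inv _ hdet, Matrix.one_mulVec]
  have ht : star (P.mulVec x) ⬝ᵥ y = star y ⬝ᵥ (A.mulVec y) := by
    rw [← hAy, Matrix.star_mulVec, hA.isHermitian.eq, ← Matrix.dotProduct_mulVec]
  have ht2 : (star (P.mulVec x) ⬝ᵥ y).re = (star y ⬝ᵥ (P.mulVec x)).re := by
    rw [ht, hAy]
  have hq : qf P (z - z0) = (star x ⬝ᵥ P.mulVec x).re := qf_eq_dot _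
  have h0 : 0 ≤ (star y ⬝ᵥ (A.mulVec y)).re := (Complex.le_def.1
    (hA.posSemidef.dotProduct_mulVec_nonneg y)).1
  rw [hE]
  refine ⟨by rw [ht]; exact h0, ?_⟩
  -- 0 ≤ (x - y/2)^* P (x - y/2)
  have h1 : 0 ≤ (star (x - (1 / 2 : ℂ) • y) ⬝ᵥ P.mulVec (x - (1 / 2 : ℂ) • y)).re :=
    (Complex.le_def.1 (hP.posSemidef.dotProduct_mulVec_nonneg _)).1
  have h2 : (star y ⬝ᵥ P.mulVec y).re ≤ 2 * (star y ⬝ᵥ A.mulVec y).re := by
    have h3 := (Complex.le_def.1 (hAP.dotProduct_mulVec_nonneg y)).1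
    have h4 : (2 • A - P).mulVec y = (2 : ℂ) • A.mulVec y - P.mulVec y := by
      rw [Matrix.sub_mulVec, two_smul, Matrix.add_mulVec, two_smul]
    rw [h4, dotProduct_sub, dotProduct_smul] at h3
    simp only [Complex.sub_re, smul_eq_mul, Complex.zero_re] at h3
    have h5 : ((2 : ℂ) * (star y ⬝ᵥ A.mulVec y)).re = 2 * (star y ⬝ᵥ A.mulVec y).re := by
      simp
    rw [h5] at h3
    linarith
  have h6 : (star (x - (1 / 2 : ℂ) • y) ⬝ᵥ P.mulVec (x - (1 / 2 : ℂ) • y)).re =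
      (star x ⬝ᵥ P.mulVec x).re - (star y ⬝ᵥ P.mulVec x).re / 2 -
        (star x ⬝ᵥ P.mulVec y).re / 2 + (star y ⬝ᵥ P.mulVec y).re / 4 := by
    rw [Matrix.mulVec_sub, Matrix.mulVec_smul, star_sub, star_smul, sub_dotProduct,
      dotProduct_sub, dotProduct_sub, smul_dotProduct, smul_dotProduct, dotProduct_smul,
      dotProduct_smul]
    have e1 : star (1 / 2 : ℂ) = ((1 / 2 : ℝ) : ℂ) := by
      simp
    have e2 : (1 / 2 : ℂ) = ((1 / 2 : ℝ) : ℂ) := by simp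
    rw [e1, e2]
    simp only [smul_eq_mul, Complex.sub_re, Complex.re_ofReal_mul]
    ring
  have h7 : (star x ⬝ᵥ P.mulVec y).re = (star y ⬝ᵥ P.mulVec x).re := by
    rw [← ht2, Matrix.star_mulVec, hP.isHermitian.eq, ← Matrix.dotProduct_mulVec]
  have h8 : (star (P.mulVec x) ⬝ᵥ y).re = (star y ⬝ᵥ (A.mulVec y)).re := by rw [ht]
  rw [hq]
  rw [h6, h7] at h1
  rw [← ht2] at h1
  linarith

end Vale.Agent.P284.H888
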